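import Mathlib

/-!
# P172, block DIM-E: finite product probability with weights (helper723)
-/

namespace Vale.Agent.P172.Rnd

open Finset

/-- indicator of a proposition -/
noncomputable def ind (p : Prop) : ℝ := open Classical in if p then 1 else 0

theorem ind_pos {p : Prop} (h : p) : ind p = 1 := by simp [ind, h]

theorem ind_neg {p : Prop} (h : ¬ p) : ind p = 0 := by simp [ind, h]

theorem ind_nonneg (p : Prop) : 0 ≤ ind p := by
  by_cases h : p
  · rw [ind_pos h]; norm_num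
  · rw [ind_neg h]

theorem ind_le_one (p : Prop) : ind p ≤ 1 := by
  by_cases h : p
  · rw [ind_pos h]
  · rw [ind_neg h]; norm_num

theorem ind_mono {p q : Prop} (h : p → q) : ind p ≤ ind q := by
  by_cases hp : p
  · rw [ind_pos hp, ind_pos (h hp)]
  · rw [ind_neg hp]; exact ind_nonneg q

theorem ind_and (p q : Prop) : ind (p ∧ q) = ind p * ind q := by
  by_cases hp : p <;> by_cases hq : q <;> simp [ind, hp, hq]

variable {I : Type} [Fintype I] {S : I → Type} [∀ i, Fintype (S i)]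

/-- expectation for the product of the weights `w i` -/
noncomputable def Ex (w : ∀ i, S i → ℝ) (F : (∀ i, S i) → ℝ) : ℝ :=
  open Classical in ∑ ω : (∀ i, S i), (∏ i, w i (ω i)) * F ω

/-- probability -/
noncomputable def Pr (w : ∀ i, S i → ℝ) (A : (∀ i, S i) → Prop) : ℝ :=
  Ex w fun ω => ind (A ω)

variable {w : ∀ i, S i → ℝ}

theorem Ex_prod (g : ∀ i, S i → ℝ) :
    Ex w (fun ω => ∏ i, g i (ω i)) = ∏ i, ∑ s, w i s * g i s := by
  classical
  unfold Ex
  rw [Finset.prod_univ_sum]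
  rw [Fintype.piFinset_univ]
  refine Finset.sum_congr rfl fun ω _ => ?_
  rw [Finset.prod_mul_distrib]

theorem Ex_one (h1 : ∀ i, ∑ s, w i s = 1) : Ex w (fun _ => 1) = 1 := by
  have := Ex_prod (w := w) (fun _ _ => 1)
  simp only [Finset.prod_const_one, mul_one, h1] at this
  exact this

theorem Ex_add (F G : (∀ i, S i) → ℝ) : Ex w (fun ω => F ω + G ω) = Ex w F + Ex w G := by
  simp [Ex, mul_add, Finset.sum_add_distrib]

theorem Ex_sum {ι : Type*} (s : Finset ι) (F : ι → (∀ i, S i) → ℝ) :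
    Ex w (fun ω => ∑ b ∈ s, F b ω) = ∑ b ∈ s, Ex w (F b) := by
  simp only [Ex, Finset.mul_sum]
  rw [Finset.sum_comm]

theorem Ex_mul (c : ℝ) (F : (∀ i, S i) → ℝ) : Ex w (fun ω => c * F ω) = c * Ex w F := by
  simp only [Ex, Finset.mul_sum]
  exact Finset.sum_congr rfl fun ω _ => by ring

theorem Ex_mono (hw : ∀ i s, 0 ≤ w i s) {F G : (∀ i, S i) → ℝ} (h : ∀ ω, F ω ≤ G ω) :
    Ex w F ≤ Ex w G :=
  Finset.sum_le_sum fun ω _ => mul_le_mul_of_nonneg_left (h ω)
    (Finset.prod_nonneg fun i _ => hw i _)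

theorem Pr_or (hw : ∀ i s, 0 ≤ w i s) (A B : (∀ i, S i) → Prop) :
    Pr w (fun ω => A ω ∨ B ω) ≤ Pr w A + Pr w B := by
  unfold Pr
  rw [← Ex_add]
  refine Ex_mono hw fun ω => ?_
  by_cases hA : A ω
  · rw [ind_pos (Or.inl hA), ind_pos hA]; linarith [ind_nonneg (B ω)]
  · rw [ind_neg hA, zero_add]; exact ind_mono fun h => h.resolve_left hA

theorem Pr_exists (hw : ∀ i s, 0 ≤ w i s) {ι : Type*} [Fintype ι] (A : ι → (∀ i, S i) → Prop) :
    Pr w (fun ω => ∃ b, A b ω) ≤ ∑ b, Pr w (A b) := by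
  unfold Pr
  rw [← Ex_sum]
  refine Ex_mono hw fun ω => ?_
  by_cases h : ∃ b, A b ω
  · rw [ind_pos h]
    obtain ⟨b, hb⟩ := h
    rw [← ind_pos hb]
    exact Finset.single_le_sum (f := fun b => ind (A b ω)) (fun _ _ => ind_nonneg _)
      (Finset.mem_univ b)
  · rw [ind_neg h]
    exact Finset.sum_nonneg fun _ _ => ind_nonneg _

theorem Pr_mono (hw : ∀ i s, 0 ≤ w i s) {A B : (∀ i, S i) → Prop} (h : ∀ ω, A ω → B ω) :
    Pr w A ≤ Pr w B :=
  Ex_mono hw fun ω => ind_mono (h ω)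

theorem Pr_nonneg (hw : ∀ i s, 0 ≤ w i s) (A : (∀ i, S i) → Prop) : 0 ≤ Pr w A :=
  Finset.sum_nonneg fun _ _ => mul_nonneg (Finset.prod_nonneg fun i _ => hw i _) (ind_nonneg _)

theorem exists_not (h1 : ∀ i, ∑ s, w i s = 1)
    {A : (∀ i, S i) → Prop} (h : Pr w A < 1) : ∃ ω, ¬ A ω := by
  by_contra hc
  push Not at hc
  have : Pr w A = 1 := by
    rw [← Ex_one h1]
    unfold Pr
    congr 1
    funext ω
    exact ind_pos (hc ω)
  linarith

/-- a product of functions over a set of coordinates -/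
theorem Ex_prod_subset (h1 : ∀ i, ∑ s, w i s = 1) (X : ∀ i, S i → ℝ) (K : Finset I) :
    Ex w (fun ω => ∏ i ∈ K, X i (ω i)) = ∏ i ∈ K, ∑ s, w i s * X i s := by
  classical
  have h := Ex_prod (w := w) (fun i s => if i ∈ K then X i s else 1)
  have e1 : (fun ω : (∀ i, S i) => ∏ i, (if i ∈ K then X i (ω i) else 1)) =
      fun ω => ∏ i ∈ K, X i (ω i) := by
    funext ω
    rw [Finset.prod_ite_mem, Finset.univ_inter]
  rw [e1] at h
  rw [h]
  have e2 : ∀ i, (∑ s, w i s * (if i ∈ K then X i s else 1)) =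
      if i ∈ K then ∑ s, w i s * X i s else 1 := by
    intro i
    split_ifs with hi
    · rfl
    · simp [h1 i]
  simp only [e2]
  rw [Finset.prod_ite_mem, Finset.univ_inter]

/-- prescribing several values: at most the product of the weights -/
theorem Pr_prescribe (hw : ∀ i s, 0 ≤ w i s) (h1 : ∀ i, ∑ s, w i s = 1)
    {m : ℕ} (x : Fin m → Σ i, S i) (hx : Function.Injective x) :
    Pr w (fun ω => ∀ r, ω (x r).1 = (x r).2) ≤ ∏ r, w (x r).1 (x r).2 := by
  classical
  -- indicator as a product over coordinates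
  have e1 : ∀ ω : (∀ i, S i), ind (∀ r, ω (x r).1 = (x r).2) =
      ∏ i, ind (∀ r, ∀ h : (x r).1 = i, ω i = h ▸ (x r).2) := by
    intro ω
    by_cases h : ∀ r, ω (x r).1 = (x r).2
    · rw [ind_pos h]
      symm
      apply Finset.prod_eq_one
      intro i _
      rw [ind_pos]
      intro r hr
      subst hr
      exact h r
    · rw [ind_neg h]
      symm
      push Not at h
      obtain ⟨r, hr⟩ := h
      apply Finset.prod_eq_zero (Finset.mem_univ (x r).1)
      rw [ind_neg]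
      push Not
      exact ⟨r, rfl, hr⟩
  have e0 : Pr w (fun ω => ∀ r, ω (x r).1 = (x r).2) =
      ∏ i, ∑ s, w i s * ind (∀ r, ∀ h : (x r).1 = i, s = h ▸ (x r).2) := by
    rw [← Ex_prod (w := w) (fun i s => ind (∀ r, ∀ h : (x r).1 = i, s = h ▸ (x r).2))]
    unfold Pr
    congr 1
    funext ω
    exact e1 ω
  rw [e0]
  -- product over the fibres
  have e2 : ∏ r, w (x r).1 (x r).2 = ∏ i, ∏ r ∈ Finset.univ.filter (fun r => (x r).1 = i),
      w (x r).1 (x r).2 := by
    rw [← Finset.prod_fiberwise Finset.univ (fun r => (x r).1) (fun r => w (x r).1 (x r).2)]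
  rw [e2]
  refine Finset.prod_le_prod (fun i _ => Finset.sum_nonneg fun s _ =>
    mul_nonneg (hw i s) (ind_nonneg _)) fun i _ => ?_
  -- one coordinate
  rcases Nat.lt_trichotomy (Finset.univ.filter (fun r => (x r).1 = i)).card 1 with h0 | h0 | h0
  · have h0' : Finset.univ.filter (fun r => (x r).1 = i) = ∅ := by
      rw [← Finset.card_eq_zero]; omega
    rw [h0', Finset.prod_empty, ← h1 i]
    refine Finset.sum_le_sum fun s _ => ?_
    exact mul_le_of_le_one_right (hw i s) (ind_le_one _)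
  · obtain ⟨r, hr⟩ := Finset.card_eq_one.1 h0
    rw [hr, Finset.prod_singleton]
    have hri : (x r).1 = i := by
      have : r ∈ Finset.univ.filter (fun r => (x r).1 = i) := by rw [hr]; simp
      simpa using this
    subst hri
    rw [← Finset.sum_subset (Finset.subset_univ {(x r).2})]
    · rw [Finset.sum_singleton]
      exact mul_le_of_le_one_right (hw _ _) (ind_le_one _)
    · intro s _ hs
      rw [ind_neg, mul_zero]
      intro hh
      apply hs
      rw [Finset.mem_singleton]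
      exact hh r rfl
  · obtain ⟨r, hr, r', hr', hne⟩ := Finset.one_lt_card.1 h0
    simp only [Finset.mem_filter, Finset.mem_univ, true_and] at hr hr'
    have : (∑ s, w i s * ind (∀ r, ∀ h : (x r).1 = i, s = h ▸ (x r).2)) = 0 := by
      apply Finset.sum_eq_zero
      intro s _
      rw [ind_neg, mul_zero]
      intro hh
      have h1' := hh r hr
      have h2' := hh r' hr'
      apply hne
      apply hx
      have : ∀ (a b : Σ i, S i) (i : I) (ha : a.1 = i) (hb : b.1 = i) (s : S i),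
          s = ha ▸ a.2 → s = hb ▸ b.2 → a = b := by
        rintro ⟨a1, a2⟩ ⟨b1, b2⟩ i ha hb s h3 h4
        subst ha
        simp only at hb
        subst hb
        simp only at h3 h4
        rw [← h3, ← h4]
      exact this _ _ i hr hr' s h1' h2'
    rw [this]
    exact Finset.prod_nonneg fun r _ => hw _ _

/-! ## exponential moments -/

/-- exponential moment of a sum of products of indicators over disjoint blocks -/
theorem Ex_block (h1 : ∀ i, ∑ s, w i s = 1) {B : Type} [Fintype B] (blk : B → Finset I)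
    (hd : ∀ b b', b ≠ b' → Disjoint (blk b) (blk b')) (A : ∀ i, S i → Prop) (t : ℝ) :
    Ex w (fun ω => ∏ b, (1 + t * ∏ i ∈ blk b, ind (A i (ω i)))) =
      ∏ b, (1 + t * ∏ i ∈ blk b, ∑ s, w i s * ind (A i s)) := by
  classical
  have e1 : ∀ f : B → ℝ, ∏ b, (1 + t * f b) =
      ∑ K ∈ (Finset.univ : Finset B).powerset, t ^ K.card * ∏ b ∈ K, f b := by
    intro f
    have := Finset.prod_add (fun b => t * f b) (fun _ => (1 : ℝ)) (Finset.univ : Finset B)
    simp only [Finset.prod_const_one, mul_one] at this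
    rw [show (∏ b, (1 + t * f b)) = ∏ b, (t * f b + 1) from
      Finset.prod_congr rfl fun _ _ => add_comm _ _, this]
    refine Finset.sum_congr rfl fun K _ => ?_
    rw [Finset.prod_mul_distrib, Finset.prod_const]
  simp only [e1]
  rw [Ex_sum]
  refine Finset.sum_congr rfl fun K _ => ?_
  rw [Ex_mul]
  congr 1
  have hd' : (K : Set B).PairwiseDisjoint blk := fun b _ b' _ h => hd b b' h
  have e2 : ∀ g : I → ℝ, ∏ b ∈ K, ∏ i ∈ blk b, g i = ∏ i ∈ K.biUnion blk, g i := by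
    intro g
    rw [Finset.prod_biUnion hd']
  rw [e2]
  rw [← Ex_prod_subset h1 (fun i s => ind (A i s))]
  congr 1
  funext ω
  rw [e2]

/-- number of blocks all of whose indicators are one -/
noncomputable def cnt {B : Type} [Fintype B] (blk : B → Finset I) (A : ∀ i, S i → Prop)
    (ω : ∀ i, S i) : ℝ := ∑ b, ind (∀ i ∈ blk b, A i (ω i))

theorem ind_forall {ι : Type*} (K : Finset ι) (p : ι → Prop) :
    ind (∀ i ∈ K, p i) = ∏ i ∈ K, ind (p i) := by
  classical
  by_cases h : ∀ i ∈ K, p i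
  · rw [ind_pos h, Finset.prod_eq_one]
    exact fun i hi => ind_pos (h i hi)
  · rw [ind_neg h]
    push Not at h
    obtain ⟨i, hi, hp⟩ := h
    exact (Finset.prod_eq_zero hi (ind_neg hp)).symm

theorem exp_cnt {B : Type} [Fintype B] (blk : B → Finset I) (A : ∀ i, S i → Prop)
    (ω : ∀ i, S i) (l : ℝ) :
    Real.exp (l * cnt blk A ω) =
      ∏ b, (1 + (Real.exp l - 1) * ∏ i ∈ blk b, ind (A i (ω i))) := by
  unfold cnt
  rw [Finset.mul_sum, Real.exp_sum]
  refine Finset.prod_congr rfl fun b _ => ?_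
  rw [← ind_forall]
  by_cases h : ∀ i ∈ blk b, A i (ω i)
  · rw [ind_pos h]; simp
  · rw [ind_neg h]; simp

theorem Ex_exp_cnt (h1 : ∀ i, ∑ s, w i s = 1) (hw : ∀ i s, 0 ≤ w i s)
    {B : Type} [Fintype B] (blk : B → Finset I)
    (hd : ∀ b b', b ≠ b' → Disjoint (blk b) (blk b')) (A : ∀ i, S i → Prop) (l : ℝ) :
    Ex w (fun ω => Real.exp (l * cnt blk A ω)) ≤
      Real.exp ((Real.exp l - 1) * ∑ b, ∏ i ∈ blk b, ∑ s, w i s * ind (A i s)) := by
  have e : (fun ω => Real.exp (l * cnt blk A ω)) = fun ω =>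
      ∏ b, (1 + (Real.exp l - 1) * ∏ i ∈ blk b, ind (A i (ω i))) := by
    funext ω; exact exp_cnt blk A ω l
  rw [e, Ex_block h1 blk hd A, Finset.mul_sum, Real.exp_sum]
  have hm : ∀ i, 0 ≤ ∑ s, w i s * ind (A i s) ∧ ∑ s, w i s * ind (A i s) ≤ 1 := by
    intro i
    refine ⟨Finset.sum_nonneg fun s _ => mul_nonneg (hw i s) (ind_nonneg _), ?_⟩
    rw [← h1 i]
    exact Finset.sum_le_sum fun s _ => mul_le_of_le_one_right (hw i s) (ind_le_one _)
  refine Finset.prod_le_prod (fun b _ => ?_) fun b _ => ?_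
  · have h2 : 0 ≤ ∏ i ∈ blk b, ∑ s, w i s * ind (A i s) :=
      Finset.prod_nonneg fun i _ => (hm i).1
    have h3 : ∏ i ∈ blk b, ∑ s, w i s * ind (A i s) ≤ 1 :=
      Finset.prod_le_one (fun i _ => (hm i).1) fun i _ => (hm i).2
    nlinarith [Real.exp_pos l]
  · have := Real.add_one_le_exp ((Real.exp l - 1) * ∏ i ∈ blk b, ∑ s, w i s * ind (A i s))
    linarith

/-- upper tail -/
theorem Pr_ge (h1 : ∀ i, ∑ s, w i s = 1) (hw : ∀ i s, 0 ≤ w i s)
    {B : Type} [Fintype B] (blk : B → Finset I)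
    (hd : ∀ b b', b ≠ b' → Disjoint (blk b) (blk b')) (A : ∀ i, S i → Prop)
    {μ ε : ℝ} (hε : 0 < ε) (hε1 : ε ≤ 1)
    (hμ : ∑ b, ∏ i ∈ blk b, ∑ s, w i s * ind (A i s) ≤ μ) :
    Pr w (fun ω => (1 + ε) * μ < cnt blk A ω) ≤ Real.exp (-(ε ^ 2 / 4) * μ) := by
  have hμ0 : 0 ≤ μ := le_trans (Finset.sum_nonneg fun b _ => Finset.prod_nonneg fun i _ =>
    Finset.sum_nonneg fun s _ => mul_nonneg (hw i s) (ind_nonneg _)) hμ
  have hl : Real.exp (ε / 2) - 1 ≤ ε / 2 + (ε / 2) ^ 2 := by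
    have := Real.abs_exp_sub_one_sub_id_le (x := ε / 2) (by rw [abs_of_pos (by linarith)]; linarith)
    have := le_of_abs_le this
    linarith
  have hb : ∀ ω, ind ((1 + ε) * μ < cnt blk A ω) ≤
      Real.exp (-(ε / 2 * ((1 + ε) * μ))) * Real.exp (ε / 2 * cnt blk A ω) := by
    intro ω
    by_cases h : (1 + ε) * μ < cnt blk A ω
    · rw [ind_pos h, ← Real.exp_add]
      apply Real.one_le_exp
      nlinarith
    · rw [ind_neg h]; positivity
  calc Pr w (fun ω => (1 + ε) * μ < cnt blk A ω)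
      ≤ Ex w (fun ω => Real.exp (-(ε / 2 * ((1 + ε) * μ))) * Real.exp (ε / 2 * cnt blk A ω)) :=
        Ex_mono hw hb
    _ = Real.exp (-(ε / 2 * ((1 + ε) * μ))) * Ex w (fun ω => Real.exp (ε / 2 * cnt blk A ω)) :=
        Ex_mul _ _
    _ ≤ Real.exp (-(ε / 2 * ((1 + ε) * μ))) * Real.exp ((Real.exp (ε / 2) - 1) * μ) := by
        refine mul_le_mul_of_nonneg_left ((Ex_exp_cnt h1 hw blk hd A _).trans ?_) (by positivity)
        apply Real.exp_le_exp.2
        exact mul_le_mul_of_nonneg_left hμ (by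
          have := Real.one_le_exp (x := ε / 2) (by linarith); linarith)
    _ ≤ Real.exp (-(ε ^ 2 / 4) * μ) := by
        rw [← Real.exp_add]
        apply Real.exp_le_exp.2
        nlinarith [mul_le_mul_of_nonneg_right hl hμ0]

/-- lower tail -/
theorem Pr_le (h1 : ∀ i, ∑ s, w i s = 1) (hw : ∀ i s, 0 ≤ w i s)
    {B : Type} [Fintype B] (blk : B → Finset I)
    (hd : ∀ b b', b ≠ b' → Disjoint (blk b) (blk b')) (A : ∀ i, S i → Prop)
    {μ ε : ℝ} (hμ0 : 0 ≤ μ) (hε : 0 < ε) (hε1 : ε ≤ 1)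
    (hμ : (1 - ε / 4) * μ ≤ ∑ b, ∏ i ∈ blk b, ∑ s, w i s * ind (A i s))
    (hμ' : ∑ b, ∏ i ∈ blk b, ∑ s, w i s * ind (A i s) ≤ μ) :
    Pr w (fun ω => cnt blk A ω < (1 - ε) * μ) ≤ Real.exp (-(ε ^ 2 / 8) * μ) := by
  set ν := ∑ b, ∏ i ∈ blk b, ∑ s, w i s * ind (A i s) with hν
  have hl : Real.exp (-(ε / 2)) - 1 ≤ -(ε / 2) + (ε / 2) ^ 2 := by
    have := Real.abs_exp_sub_one_sub_id_le (x := -(ε / 2))
      (by rw [abs_neg, abs_of_pos (by linarith)]; linarith)
    have := le_of_abs_le this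
    nlinarith
  have hb : ∀ ω, ind (cnt blk A ω < (1 - ε) * μ) ≤
      Real.exp (ε / 2 * ((1 - ε) * μ)) * Real.exp (-(ε / 2) * cnt blk A ω) := by
    intro ω
    by_cases h : cnt blk A ω < (1 - ε) * μ
    · rw [ind_pos h, ← Real.exp_add]
      apply Real.one_le_exp
      nlinarith
    · rw [ind_neg h]; positivity
  have hν0 : 0 ≤ ν := Finset.sum_nonneg fun b _ => Finset.prod_nonneg fun i _ =>
    Finset.sum_nonneg fun s _ => mul_nonneg (hw i s) (ind_nonneg _)
  calc Pr w (fun ω => cnt blk A ω < (1 - ε) * μ)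
      ≤ Ex w (fun ω => Real.exp (ε / 2 * ((1 - ε) * μ)) * Real.exp (-(ε / 2) * cnt blk A ω)) :=
        Ex_mono hw hb
    _ = Real.exp (ε / 2 * ((1 - ε) * μ)) * Ex w (fun ω => Real.exp (-(ε / 2) * cnt blk A ω)) :=
        Ex_mul _ _
    _ ≤ Real.exp (ε / 2 * ((1 - ε) * μ)) * Real.exp ((Real.exp (-(ε / 2)) - 1) * ν) :=
        mul_le_mul_of_nonneg_left (Ex_exp_cnt h1 hw blk hd A _) (by positivity)
    _ ≤ Real.exp (-(ε ^ 2 / 8) * μ) := by
        rw [← Real.exp_add]
        apply Real.exp_le_exp.2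
        have h3 := mul_le_mul_of_nonneg_right hl hν0
        have h4 : -(ε / 2) * ν ≤ -(ε / 2) * ((1 - ε / 4) * μ) := by nlinarith
        have h5 : (ε / 2) ^ 2 * ν ≤ (ε / 2) ^ 2 * μ := by nlinarith [sq_nonneg (ε / 2)]
        nlinarith

end Vale.Agent.P172.Rnd
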