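import Vale.Agent.P172.Iface
import Vale.Agent.P172.Rand.Prob

/-!
# P172, block DIM-E: counting good words (helper723)
-/

namespace Vale.Agent.P172.Rnd

open Finset

variable {N k k' : ℕ}

theorem good_ofFn (w : Fin k → Al N) : Good (List.ofFn w) ↔
    Function.Injective (fun i => (w i).1.1) ∧ Function.Injective (fun i => (w i).1.2) := by
  unfold Good
  rw [List.map_ofFn, List.map_ofFn, List.nodup_ofFn, List.nodup_ofFn]
  rfl

/-- words with injective components avoiding given letters -/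
def avoidEquiv (Ra Rb : Finset (Fin N)) :
    {w : Fin k → Al N // Good (List.ofFn w) ∧ (∀ i, (w i).1.1 ∉ Ra) ∧ ∀ i, (w i).1.2 ∉ Rb} ≃
      (Fin k ↪ {x : Fin N // x ∉ Ra}) × (Fin k ↪ {x : Fin N // x ∉ Rb}) × (Fin k → Bool) where
  toFun w := (⟨fun i => ⟨(w.1 i).1.1, w.2.2.1 i⟩, fun i j h =>
      ((good_ofFn _).1 w.2.1).1 (by simpa using h)⟩,
    ⟨fun i => ⟨(w.1 i).1.2, w.2.2.2 i⟩, fun i j h =>
      ((good_ofFn _).1 w.2.1).2 (by simpa using h)⟩, fun i => (w.1 i).2)
  invFun t := ⟨fun i => (((t.1 i).1, (t.2.1 i).1), t.2.2 i), by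
    refine ⟨(good_ofFn _).2 ⟨fun i j h => ?_, fun i j h => ?_⟩, fun i => (t.1 i).2,
      fun i => (t.2.1 i).2⟩
    · exact t.1.injective (Subtype.ext h)
    · exact t.2.1.injective (Subtype.ext h)⟩
  left_inv w := rfl
  right_inv t := rfl

open Classical in
theorem card_avoid (Ra Rb : Finset (Fin N)) :
    (Finset.univ.filter fun w : Fin k → Al N => Good (List.ofFn w) ∧ (∀ i, (w i).1.1 ∉ Ra) ∧
      ∀ i, (w i).1.2 ∉ Rb).card =
      (N - Ra.card).descFactorial k * ((N - Rb.card).descFactorial k * 2 ^ k) := by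
  rw [← Fintype.card_subtype, Fintype.card_congr (avoidEquiv Ra Rb), Fintype.card_prod,
    Fintype.card_prod, Fintype.card_embedding_eq, Fintype.card_embedding_eq]
  simp [Fintype.card_subtype_compl]

theorem card_Al : Fintype.card (Al N) = 2 * N ^ 2 := by
  simp [Al]; ring

theorem descFactorial_lower (r : ℕ) (hN : r + k < N) :
    (1 - (k : ℝ) * (r + k) / N) * (N : ℝ) ^ k ≤ ((N - r).descFactorial k : ℝ) := by
  have hN0 : (0 : ℝ) < N := by exact_mod_cast (by omega : 0 < N)
  have h1 := Nat.pow_sub_le_descFactorial (N - r) k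
  have h2 : (N - r - k) ^ k ≤ (N - r).descFactorial k :=
    (Nat.pow_le_pow_left (by omega) k).trans h1
  have h3 : (((N - r - k : ℕ) : ℝ)) ^ k ≤ ((N - r).descFactorial k : ℝ) := by exact_mod_cast h2
  refine le_trans ?_ h3
  have h4 : ((N - r - k : ℕ) : ℝ) = N - (r + k) := by
    rw [Nat.cast_sub (by omega), Nat.cast_sub (by omega)]; ring
  rw [h4]
  have h5 : (N : ℝ) - (r + k) = (1 + (-((r + k) / N))) * N := by field_simp; ring
  rw [h5, mul_pow]
  refine mul_le_mul_of_nonneg_right ?_ (by positivity)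
  have h6 : (-2 : ℝ) ≤ -((r + k) / N) := by
    have : ((r : ℝ) + k) / N ≤ 1 := by
      rw [div_le_one hN0]; exact_mod_cast hN.le
    linarith
  have := one_add_mul_le_pow h6 k
  refine le_trans (le_of_eq ?_) this
  ring

/-- lower bound for the number of good words avoiding few letters -/
theorem eventually_card (k r : ℕ) {δ : ℝ} (hδ : 0 < δ) : ∃ N₀ : ℕ, ∀ N ≥ N₀,
    ∀ Ra Rb : Finset (Fin N), Ra.card ≤ r → Rb.card ≤ r →
      (1 - δ) * (Fintype.card (Al N) : ℝ) ^ k ≤
        ((N - Ra.card).descFactorial k * ((N - Rb.card).descFactorial k * 2 ^ k) : ℕ) := by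
  obtain ⟨N₁, hN₁⟩ := exists_nat_gt ((2 * k * (r + k) : ℝ) / δ)
  refine ⟨max (N₁ + 1) (r + k + 1 + 2 * k * (r + k)), fun N hN Ra Rb hRa hRb => ?_⟩
  have hN1 : N₁ < N := by have := le_of_max_le_left hN; omega
  have hN2 : r + k + 2 * k * (r + k) < N := by have := le_of_max_le_right hN; omega
  have hN0 : (0 : ℝ) < N := by exact_mod_cast (by omega : 0 < N)
  have hx : (k : ℝ) * (r + k) / N ≤ δ / 2 := by
    rw [div_le_iff₀ hN0]
    have : (2 * k * (r + k) : ℝ) / δ < N := hN₁.trans (by exact_mod_cast hN1)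
    rw [div_lt_iff₀ hδ] at this
    nlinarith
  have hx1 : (k : ℝ) * (r + k) / N ≤ 1 := by
    rw [div_le_one hN0]
    have : ((k * (r + k) : ℕ) : ℝ) ≤ N := by
      exact_mod_cast (by nlinarith : k * (r + k) ≤ N)
    push_cast at this
    exact this
  have hx0 : 0 ≤ (k : ℝ) * (r + k) / N := by positivity
  have hlow : ∀ R : Finset (Fin N), R.card ≤ r →
      (1 - (k : ℝ) * (r + k) / N) * (N : ℝ) ^ k ≤ ((N - R.card).descFactorial k : ℝ) := by
    intro R hR
    refine le_trans ?_ (descFactorial_lower R.card (by omega))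
    refine mul_le_mul_of_nonneg_right ?_ (by positivity)
    have : (k : ℝ) * (R.card + k) / N ≤ (k : ℝ) * (r + k) / N := by
      have : (R.card : ℝ) ≤ r := by exact_mod_cast hR
      gcongr
    linarith
  have ha := hlow Ra hRa
  have hb := hlow Rb hRb
  push_cast
  rw [card_Al]
  push_cast
  rw [mul_pow, ← pow_mul]
  set x := (k : ℝ) * (r + k) / N with hxdef
  have hp : (N : ℝ) ^ (2 * k) = (N : ℝ) ^ k * (N : ℝ) ^ k := by rw [two_mul, pow_add]
  rw [hp]
  have h7 : ((1 - x) * (N : ℝ) ^ k) * ((1 - x) * (N : ℝ) ^ k) ≤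
      ((N - Ra.card).descFactorial k : ℝ) * ((N - Rb.card).descFactorial k : ℝ) :=
    mul_le_mul ha hb (mul_nonneg (by linarith) (by positivity)) (by positivity)
  have h8 : (1 - δ) ≤ (1 - x) * (1 - x) := by nlinarith
  have h9 : (1 - δ) * ((N : ℝ) ^ k * (N : ℝ) ^ k) ≤
      ((1 - x) * (N : ℝ) ^ k) * ((1 - x) * (N : ℝ) ^ k) := by
    have : ((1 - x) * (N : ℝ) ^ k) * ((1 - x) * (N : ℝ) ^ k) =
      ((1 - x) * (1 - x)) * ((N : ℝ) ^ k * (N : ℝ) ^ k) := by ring
    rw [this]
    exact mul_le_mul_of_nonneg_right h8 (by positivity)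
  nlinarith [h7, h9, pow_pos (show (0 : ℝ) < 2 by norm_num) k]

/-- letters of the words -/
def la (w : Fin k → Al N) : Finset (Fin N) := Finset.univ.image fun i => (w i).1.1

/-- letters of the words -/
def lb (w : Fin k → Al N) : Finset (Fin N) := Finset.univ.image fun i => (w i).1.2

theorem card_la (w : Fin k → Al N) : (la w).card ≤ k := by
  refine (Finset.card_image_le).trans ?_
  simp

theorem card_lb (w : Fin k → Al N) : (lb w).card ≤ k := by
  refine (Finset.card_image_le).trans ?_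
  simp

theorem good_relWord {u v : Fin k → Al N} {c : Fin k' → Al N} (hu : Good (List.ofFn u))
    (hv : Good (List.ofFn v)) (hc : Good (List.ofFn c))
    (huva : ∀ i, (v i).1.1 ∉ la u) (huvb : ∀ i, (v i).1.2 ∉ lb u)
    (hca : ∀ i, (c i).1.1 ∉ la u ∪ la v) (hcb : ∀ i, (c i).1.2 ∉ lb u ∪ lb v) :
    Good (relWord u c v) := by
  rw [good_ofFn] at hu hv hc
  simp only [Finset.mem_union, not_or, la, lb, Finset.mem_image, Finset.mem_univ, true_and,
    not_exists] at huva huvb hca hcb
  constructor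
  · simp only [relWord, List.map_append, List.map_reverse, List.map_map, List.map_ofFn]
    rw [List.nodup_append, List.nodup_append, List.nodup_reverse, List.nodup_ofFn,
      List.nodup_ofFn, List.nodup_ofFn]
    refine ⟨⟨hu.1, hc.1, ?_⟩, hv.1, ?_⟩
    · intro a ha b hb hab
      rw [List.mem_ofFn] at ha hb
      obtain ⟨i, rfl⟩ := ha
      obtain ⟨j, rfl⟩ := hb
      exact (hca j).1 i hab
    · intro a ha b hb hab
      rw [List.mem_append, List.mem_ofFn, List.mem_ofFn] at ha
      rw [List.mem_reverse, List.mem_ofFn] at hb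
      obtain ⟨j, rfl⟩ := hb
      rcases ha with ⟨i, rfl⟩ | ⟨i, rfl⟩
      · exact huva j i hab
      · exact (hca i).2 j hab.symm
  · simp only [relWord, List.map_append, List.map_reverse, List.map_map, List.map_ofFn]
    rw [List.nodup_append, List.nodup_append, List.nodup_reverse, List.nodup_ofFn,
      List.nodup_ofFn, List.nodup_ofFn]
    refine ⟨⟨hu.2, hc.2, ?_⟩, hv.2, ?_⟩
    · intro a ha b hb hab
      rw [List.mem_ofFn] at ha hb
      obtain ⟨i, rfl⟩ := ha
      obtain ⟨j, rfl⟩ := hb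
      exact (hcb j).1 i hab
    · intro a ha b hb hab
      rw [List.mem_append, List.mem_ofFn, List.mem_ofFn] at ha
      rw [List.mem_reverse, List.mem_ofFn] at hb
      obtain ⟨j, rfl⟩ := hb
      rcases ha with ⟨i, rfl⟩ | ⟨i, rfl⟩
      · exact huvb j i hab
      · exact (hcb i).2 j hab.symm

end Vale.Agent.P172.Rnd
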