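import Vale.Agent.P172.Rand.Setup

/-!
# P172, block DIM-E: sparseness of the random relators (helper723)
-/

namespace Vale.Agent.P172.Rnd

open Finset

variable {J : ℕ} {k : ℕ → ℕ} {N : ℕ}

theorem Pr_exists_mem {I : Type} [Fintype I] {S : I → Type} [∀ i, Fintype (S i)]
    {w : ∀ i, S i → ℝ} (hw : ∀ i s, 0 ≤ w i s) {ι : Type*} (s : Finset ι)
    (A : ι → (∀ i, S i) → Prop) :
    Pr w (fun ω => ∃ b ∈ s, A b ω) ≤ ∑ b ∈ s, Pr w (A b) := by
  unfold Pr
  rw [← Ex_sum]
  refine Ex_mono hw fun ω => ?_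
  by_cases h : ∃ b ∈ s, A b ω
  · rw [ind_pos h]
    obtain ⟨b, hbs, hb⟩ := h
    rw [← ind_pos hb]
    exact Finset.single_le_sum (f := fun b => ind (A b ω)) (fun _ _ => ind_nonneg _) hbs
  · rw [ind_neg h]
    exact Finset.sum_nonneg fun _ _ => ind_nonneg _

/-- triples -/
abbrev Zt (k : ℕ → ℕ) (N j : ℕ) : Type :=
  VV (k j) N × VV (k j) N × (Fin (k (j + 1)) → Al N)

/-- the prescription given by a triple -/
def xt (j : Fin J) (z : Zt k N j) : Σ i : Ix J k N, Sx J k N i :=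
  ⟨⟨j, (z.1, z.2.1)⟩, some z.2.2⟩

/-- the word of a prescription -/
def wdS (s : Σ i : Ix J k N, Sx J k N i) : List (Al N) :=
  s.2.elim [] fun c => relWord s.1.2.1.1 c s.1.2.2.1

/-- the word of a triple -/
def wz {j : ℕ} (z : Zt k N j) : List (Al N) := relWord z.1.1 z.2.2 z.2.1.1

theorem wdS_xt (j : Fin J) (z : Zt k N j) : wdS (xt j z) = wz z := rfl

/-- letters in `R` -/
def inR (R : Finset (Fin N ⊕ Fin N)) (e : Al N) : Prop := Sum.inl e.1.1 ∈ R ∧ Sum.inr e.1.2 ∈ R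

theorem mem_lets {l : List (Al N)} {e : Al N} (h : e ∈ l) : inR (lets l) e := by
  unfold lets inR
  constructor
  · apply Finset.mem_union_left
    rw [List.mem_toFinset, List.mem_map]
    exact ⟨e, h, rfl⟩
  · apply Finset.mem_union_right
    rw [List.mem_toFinset, List.mem_map]
    exact ⟨e, h, rfl⟩

theorem inR_mono {R R' : Finset (Fin N ⊕ Fin N)} (h : R ⊆ R') {e : Al N} (he : inR R e) :
    inR R' e := ⟨h he.1, h he.2⟩

open Classical in
/-- triples with letters in `R` -/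
noncomputable def GR (k : ℕ → ℕ) (R : Finset (Fin N ⊕ Fin N)) (j : ℕ) : Finset (Zt k N j) :=
  Finset.univ.filter fun z => (∀ i, inR R (z.1.1 i)) ∧ (∀ i, inR R (z.2.1.1 i)) ∧
    ∀ i, inR R (z.2.2 i)

theorem mem_GR {R : Finset (Fin N ⊕ Fin N)} {j : ℕ} {z : Zt k N j} (h : lets (wz z) ⊆ R) :
    z ∈ GR k R j := by
  simp only [GR, Finset.mem_filter, Finset.mem_univ, true_and]
  refine ⟨fun i => ?_, fun i => ?_, fun i => ?_⟩
  · refine inR_mono h (mem_lets ?_)
    unfold wz relWord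
    rw [List.mem_append, List.mem_append]
    left; left
    rw [List.mem_ofFn]
    exact ⟨i, rfl⟩
  · have h1 : Al.inv (z.2.1.1 i) ∈ wz z := by
      unfold wz relWord
      rw [List.mem_append]
      right
      rw [List.mem_reverse, List.mem_map]
      refine ⟨z.2.1.1 i, ?_, rfl⟩
      rw [List.mem_ofFn]
      exact ⟨i, rfl⟩
    have h2 := mem_lets h1
    exact inR_mono h (e := z.2.1.1 i) h2
  · refine inR_mono h (mem_lets ?_)
    unfold wz relWord
    rw [List.mem_append, List.mem_append]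
    left; right
    rw [List.mem_ofFn]
    exact ⟨i, rfl⟩

open Classical in
theorem card_inR (R : Finset (Fin N ⊕ Fin N)) :
    (Finset.univ.filter fun e : Al N => inR R e).card ≤ 2 * R.card ^ 2 := by
  have h : (Finset.univ.filter fun e : Al N => inR R e).card ≤ ((R ×ˢ R) ×ˢ
      (Finset.univ : Finset Bool)).card := by
    refine Finset.card_le_card_of_injOn (fun e => ((Sum.inl e.1.1, Sum.inr e.1.2), e.2)) ?_ ?_
    · intro e he
      simp only [Finset.coe_filter, Finset.mem_univ, true_and, Set.mem_ofPred_eq] at he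
      simp only [Finset.coe_product, Finset.coe_univ, Set.mem_prod, Finset.mem_coe, Set.mem_univ,
        and_true]
      exact he
    · rintro ⟨⟨a, b⟩, s⟩ _ ⟨⟨a', b'⟩, s'⟩ _ h
      simp only [Prod.mk.injEq, Sum.inl.injEq, Sum.inr.injEq] at h
      obtain ⟨⟨rfl, rfl⟩, rfl⟩ := h
      rfl
  refine h.trans (le_of_eq ?_)
  rw [Finset.card_product, Finset.card_product, Finset.card_univ, Fintype.card_bool]
  ring

open Classical in
theorem card_funR (R : Finset (Fin N ⊕ Fin N)) (n : ℕ) :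
    (Finset.univ.filter fun u : Fin n → Al N => ∀ i, inR R (u i)).card ≤
      (2 * R.card ^ 2) ^ n := by
  have h : (Finset.univ.filter fun u : Fin n → Al N => ∀ i, inR R (u i)) =
      Fintype.piFinset fun _ : Fin n => Finset.univ.filter fun e : Al N => inR R e := by
    ext u
    simp [Fintype.mem_piFinset]
  rw [h, Fintype.card_piFinset, Finset.prod_const, Finset.card_univ, Fintype.card_fin]
  exact Nat.pow_le_pow_left (card_inR R) n

theorem card_GR (R : Finset (Fin N ⊕ Fin N)) (j : ℕ) :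
    (GR k R j).card ≤ (2 * R.card ^ 2) ^ (2 * k j + k (j + 1)) := by
  classical
  set F : ∀ n : ℕ, Finset (Fin n → Al N) := fun n =>
    Finset.univ.filter fun u : Fin n → Al N => ∀ i, inR R (u i) with hF
  have h : (GR k R j).card ≤ (F (k j) ×ˢ (F (k j) ×ˢ F (k (j + 1)))).card := by
    refine Finset.card_le_card_of_injOn (fun z => (z.1.1, (z.2.1.1, z.2.2))) ?_ ?_
    · intro z hz
      unfold GR at hz
      simp only [Finset.coe_filter, Finset.mem_univ, true_and, Set.mem_ofPred_eq] at hz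
      simp only [hF, Finset.coe_product, Set.mem_prod, Finset.mem_coe, Finset.mem_filter,
        Finset.mem_univ, true_and]
      exact hz
    · rintro ⟨⟨a, ha⟩, ⟨b, hb⟩, s⟩ _ ⟨⟨a', ha'⟩, ⟨b', hb'⟩, s'⟩ _ h
      simp only [Prod.mk.injEq] at h
      obtain ⟨rfl, rfl, rfl⟩ := h
      rfl
  refine h.trans ?_
  rw [Finset.card_product, Finset.card_product]
  calc (F (k j)).card * ((F (k j)).card * (F (k (j + 1))).card)
      ≤ (2 * R.card ^ 2) ^ k j * ((2 * R.card ^ 2) ^ k j * (2 * R.card ^ 2) ^ k (j + 1)) :=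
        Nat.mul_le_mul (card_funR R _) (Nat.mul_le_mul (card_funR R _) (card_funR R _))
    _ = (2 * R.card ^ 2) ^ (2 * k j + k (j + 1)) := by
        rw [← pow_add, ← pow_add]
        congr 1
        ring

/-- exponent of the probability of one relator -/
def sj (k : ℕ → ℕ) (j : ℕ) : ℕ := k j - 1 + 2 * k (j + 1)

theorem qq_le (hN : 0 < N) (j : ℕ) : qq k N j ≤ 1 / (N : ℝ) ^ sj k j := by
  unfold qq pp sj
  rw [div_div, card_Al]
  have hN0 : (0 : ℝ) < N := by exact_mod_cast hN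
  apply one_div_le_one_div_of_le (by positivity)
  rw [pow_add, pow_mul]
  refine mul_le_mul_of_nonneg_left ?_ (by positivity)
  push_cast
  refine pow_le_pow_left₀ (by positivity) ?_ _
  nlinarith [sq_nonneg (N : ℝ)]

/-- event: the triples `y` are present and different -/
def Ey {m : ℕ} (τ : Fin m → Fin J) (y : ∀ r, Zt k N (τ r)) (ω : ∀ i, Sx J k N i) : Prop :=
  Function.Injective (fun r => xt (τ r) (y r)) ∧ ∀ r, ω (xt (τ r) (y r)).1 = (xt (τ r) (y r)).2

theorem Pr_Ey (hN : 0 < N) {m : ℕ} (τ : Fin m → Fin J) (y : ∀ r, Zt k N (τ r)) :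
    Pr (wt J k N) (Ey τ y) ≤ 1 / (N : ℝ) ^ (∑ r, sj k (τ r)) := by
  by_cases hx : Function.Injective (fun r => xt (τ r) (y r))
  · refine (Pr_mono (wt_nonneg hN) (fun ω h => h.2)).trans
      ((Pr_prescribe (wt_nonneg hN) (wt_sum hN) _ hx).trans ?_)
    have h1 : ∏ r, wt J k N (xt (τ r) (y r)).1 (xt (τ r) (y r)).2 ≤
        ∏ r, 1 / (N : ℝ) ^ sj k (τ r) := by
      refine Finset.prod_le_prod (fun r _ => wt_nonneg hN _ _) fun r _ => ?_
      exact qq_le hN _
    refine h1.trans (le_of_eq ?_)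
    rw [Finset.prod_div_distrib, Finset.prod_const_one, Finset.prod_pow_eq_pow_sum]
  · have h0 : Pr (wt J k N) (Ey τ y) = 0 := by
      unfold Pr Ex
      apply Finset.sum_eq_zero
      intro ω _
      have h1 : ind (Ey τ y ω) = 0 := ind_neg fun h => hx h.1
      simp only [h1, mul_zero]
    rw [h0]
    positivity

/-- the constant of the sparseness estimate -/
def Csp (J : ℕ) (k : ℕ → ℕ) (M : ℕ) : ℕ :=
  ∑ m ∈ Finset.range (M + 1), ∑ τ : Fin m → Fin J, ∑ D ∈ Finset.range (∑ r, sj k (τ r)),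
    2 ^ (∑ r, sj k (τ r)) * ∏ r, (2 * D ^ 2) ^ (2 * k (τ r) + k (τ r + 1))

/-- the bad event -/
def Bad (J : ℕ) (k : ℕ → ℕ) (N M : ℕ) (ω : ∀ i, Sx J k N i) : Prop :=
  ∃ m ∈ Finset.range (M + 1), ∃ τ : Fin m → Fin J, ∃ D ∈ Finset.range (∑ r, sj k (τ r)),
    ∃ R ∈ Finset.powersetCard D (Finset.univ : Finset (Fin N ⊕ Fin N)),
      ∃ y ∈ Fintype.piFinset (fun r => GR k R (τ r)), Ey τ y ω

theorem Pr_Bad (hN : 0 < N) (M : ℕ) : Pr (wt J k N) (Bad J k N M) ≤ Csp J k M / N := by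
  have hN0 : (0 : ℝ) < N := by exact_mod_cast hN
  have hN1 : (1 : ℝ) ≤ N := by exact_mod_cast hN
  unfold Bad
  refine (Pr_exists_mem (wt_nonneg hN) _ _).trans ?_
  unfold Csp
  rw [Nat.cast_sum, Finset.sum_div]
  refine Finset.sum_le_sum fun m _ => ?_
  refine (Pr_exists (wt_nonneg hN) _).trans ?_
  rw [Nat.cast_sum, Finset.sum_div]
  refine Finset.sum_le_sum fun τ _ => ?_
  refine (Pr_exists_mem (wt_nonneg hN) _ _).trans ?_
  rw [Nat.cast_sum, Finset.sum_div]
  refine Finset.sum_le_sum fun D hD => ?_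
  rw [Finset.mem_range] at hD
  refine (Pr_exists_mem (wt_nonneg hN) _ _).trans ?_
  set Sτ := ∑ r, sj k (τ r) with hS
  set c : ℕ := ∏ r, (2 * D ^ 2) ^ (2 * k (τ r) + k (τ r + 1)) with hc
  have h1 : ∀ R ∈ Finset.powersetCard D (Finset.univ : Finset (Fin N ⊕ Fin N)),
      Pr (wt J k N) (fun ω => ∃ y ∈ Fintype.piFinset (fun r => GR k R (τ r)), Ey τ y ω) ≤
        (c : ℝ) * (1 / (N : ℝ) ^ Sτ) := by
    intro R hR
    rw [Finset.mem_powersetCard] at hR
    refine (Pr_exists_mem (wt_nonneg hN) _ _).trans ?_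
    refine (Finset.sum_le_sum fun y _ => Pr_Ey hN τ y).trans ?_
    rw [Finset.sum_const, nsmul_eq_mul]
    refine mul_le_mul_of_nonneg_right ?_ (by positivity)
    rw [Fintype.card_piFinset, hc]
    norm_cast
    refine Finset.prod_le_prod' fun r _ => ?_
    have := card_GR (k := k) R (τ r)
    rw [hR.2] at this
    exact this
  refine (Finset.sum_le_sum h1).trans ?_
  rw [Finset.sum_const, nsmul_eq_mul, Finset.card_powersetCard, Finset.card_univ,
    Fintype.card_sum, Fintype.card_fin]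
  have h2 : (((N + N).choose D : ℕ) : ℝ) ≤ 2 ^ Sτ * (N : ℝ) ^ D := by
    have h3 : (N + N).choose D ≤ (N + N) ^ D := Nat.choose_le_pow _ _
    have h4 : (((N + N).choose D : ℕ) : ℝ) ≤ ((N + N : ℕ) : ℝ) ^ D := by exact_mod_cast h3
    refine h4.trans ?_
    push_cast
    rw [← two_mul, mul_pow]
    refine mul_le_mul_of_nonneg_right ?_ (by positivity)
    exact pow_le_pow_right₀ (by norm_num) hD.le
  calc (((N + N).choose D : ℕ) : ℝ) * ((c : ℝ) * (1 / (N : ℝ) ^ Sτ))
      ≤ (2 ^ Sτ * (N : ℝ) ^ D) * ((c : ℝ) * (1 / (N : ℝ) ^ Sτ)) :=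
        mul_le_mul_of_nonneg_right h2 (by positivity)
    _ = ((2 ^ Sτ * c : ℕ) : ℝ) * ((N : ℝ) ^ D / (N : ℝ) ^ Sτ) := by push_cast; ring
    _ ≤ ((2 ^ Sτ * c : ℕ) : ℝ) * (1 / N) := by
        refine mul_le_mul_of_nonneg_left ?_ (by positivity)
        rw [div_le_div_iff₀ (by positivity) hN0, one_mul, ← pow_succ]
        exact pow_le_pow_right₀ hN1 hD
    _ = ((2 ^ Sτ * c : ℕ) : ℝ) / N := by ring

end Vale.Agent.P172.Rnd
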