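import Vale.Agent.P172.Rand.Tail
import Vale.Agent.P172.Rand.Spars

/-!
# P172, block DIM-E: the relator sets (helper723)
-/

namespace Vale.Agent.P172.Rnd

open Finset

variable {J : ℕ} {k : ℕ → ℕ} {N : ℕ}

open Classical in
/-- the relator sets -/
noncomputable def Rl (ω : ∀ i : Ix J k N, Sx J k N i) (j : ℕ) :
    Finset ((Fin (k j) → Al N) × (Fin (k (j + 1)) → Al N) × (Fin (k j) → Al N)) :=
  Finset.univ.filter fun t => ∃ (h : j < J) (hu : Good (List.ofFn t.1))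
    (hv : Good (List.ofFn t.2.2)), ω ⟨⟨j, h⟩, (⟨t.1, hu⟩, ⟨t.2.2, hv⟩)⟩ = some t.2.1 ∧
      Good (relWord t.1 t.2.1 t.2.2)

theorem mem_Rl (ω : ∀ i : Ix J k N, Sx J k N i) (j : ℕ)
    (t : (Fin (k j) → Al N) × (Fin (k (j + 1)) → Al N) × (Fin (k j) → Al N)) :
    t ∈ Rl ω j ↔ ∃ (h : j < J) (hu : Good (List.ofFn t.1))
    (hv : Good (List.ofFn t.2.2)), ω ⟨⟨j, h⟩, (⟨t.1, hu⟩, ⟨t.2.2, hv⟩)⟩ = some t.2.1 ∧
      Good (relWord t.1 t.2.1 t.2.2) := by
  simp [Rl]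

theorem adj_iff (ω : ∀ i : Ix J k N, Sx J k N i) (j : Fin J) (u v : VV (k j) N) :
    (∃ c, (u.1, c, v.1) ∈ Rl ω j) ↔ Ad J k N ⟨j, (u, v)⟩ (ω ⟨j, (u, v)⟩) := by
  constructor
  · rintro ⟨c, hc⟩
    rw [mem_Rl] at hc
    obtain ⟨h, hu, hv, h1, h2⟩ := hc
    exact ⟨c, h1, h2⟩
  · rintro ⟨c, h1, h2⟩
    refine ⟨c, ?_⟩
    rw [mem_Rl]
    exact ⟨j.2, u.2, v.2, h1, h2⟩

theorem det_Rl (ω : ∀ i : Ix J k N, Sx J k N i) (j : ℕ)
    (t t' : (Fin (k j) → Al N) × (Fin (k (j + 1)) → Al N) × (Fin (k j) → Al N))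
    (ht : t ∈ Rl ω j) (ht' : t' ∈ Rl ω j) (h1 : t.1 = t'.1) (h2 : t.2.2 = t'.2.2) : t = t' := by
  obtain ⟨u, c, v⟩ := t
  obtain ⟨u', c', v'⟩ := t'
  simp only at h1 h2
  subst h1 h2
  rw [mem_Rl] at ht ht'
  obtain ⟨h, hu, hv, h1, -⟩ := ht
  obtain ⟨h', hu', hv', h1', -⟩ := ht'
  simp only at h1 h1'
  rw [h1] at h1'
  rw [Option.some.injEq] at h1'
  rw [h1']

theorem length_relWord {n n' : ℕ} (u v : Fin n → Al N) (c : Fin n' → Al N) :
    (relWord u c v).length = 2 * n + n' := by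
  simp [relWord]
  ring

theorem sparse_of {M : ℕ} {e : ℝ}
    (hk : ∀ j < J, e * (2 * k j + k (j + 1)) + 1 ≤ (k (j + 1) : ℝ) - k j - 1)
    (hk0 : ∀ j < J, 0 < k j) (ω : ∀ i : Ix J k N, Sx J k N i) (hB : ¬ Bad J k N M ω)
    (W : Finset (List (Al N)))
    (hW : ∀ w ∈ W, ∃ (j : Fin J) (z : Zt k N j), ω ⟨j, (z.1, z.2.1)⟩ = some z.2.2 ∧ wz z = w) :
    Sparse W M e := by
  intro T hT hcard
  by_contra h
  push Not at h
  apply hB
  have hch : ∀ r : Fin T.card, ∃ (j : Fin J) (z : Zt k N j), ω ⟨j, (z.1, z.2.1)⟩ = some z.2.2 ∧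
      wz z = (T.equivFin.symm r).1 := fun r => hW _ (hT (T.equivFin.symm r).2)
  choose τ y h1 h2 using hch
  refine ⟨T.card, Finset.mem_range.2 (by omega), τ, (T.biUnion lets).card, ?_, T.biUnion lets,
    Finset.mem_powersetCard.2 ⟨Finset.subset_univ _, rfl⟩, y,
    Fintype.mem_piFinset.2 fun r => mem_GR ?_, ?_, fun r => ?_⟩
  · rw [Finset.mem_range]
    have h3 : ∑ w ∈ T, (w.length : ℝ) = ∑ r, ((2 * k (τ r) + k (τ r + 1) : ℕ) : ℝ) := by
      rw [← Finset.sum_coe_sort T (fun w => (w.length : ℝ)),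
        ← Equiv.sum_comp T.equivFin.symm (fun w : T => (w.1.length : ℝ))]
      refine Finset.sum_congr rfl fun r _ => ?_
      rw [← h2 r]
      unfold wz
      rw [length_relWord]
    rw [h3, Finset.mul_sum] at h
    have h4 : ∑ r, (1 + e) * ((2 * k (τ r) + k (τ r + 1) : ℕ) : ℝ) ≤
        ∑ r, ((sj k (τ r) : ℕ) : ℝ) := by
      refine Finset.sum_le_sum fun r _ => ?_
      have h5 := hk (τ r) (τ r).2
      have h6 := hk0 (τ r) (τ r).2
      have h7 : (((k (τ r) - 1 : ℕ) : ℝ)) = (k (τ r) : ℝ) - 1 := by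
        rw [Nat.cast_sub (by omega), Nat.cast_one]
      unfold sj
      push_cast
      rw [h7]
      linarith
    have h7 := h.trans_le h4
    rw [← Nat.cast_sum] at h7
    exact_mod_cast h7
  · rw [h2]
    exact Finset.subset_biUnion_of_mem lets (T.equivFin.symm r).2
  · intro r r' hr
    have h3 : wdS (xt (τ r) (y r)) = wdS (xt (τ r') (y r')) := by
      simp only at hr
      rw [hr]
    rw [wdS_xt, wdS_xt, h2, h2] at h3
    exact T.equivFin.symm.injective (Subtype.ext h3)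
  · exact h1 r

theorem QR_of_ind {V : Type} [Fintype V] (adj : V → V → Prop) (p ε : ℝ) (pos : 0 < p)
    (le_one : p ≤ 1) (big : 1 ≤ ε * (Fintype.card V * p ^ 2))
    (deg : ∀ v, ∑ u, ind (adj u v) ≤ (1 + ε) * (Fintype.card V * p))
    (row : ∀ u u', u ≠ u' → |∑ v, ind (adj u v ∧ adj u' v) - Fintype.card V * p ^ 2| ≤
      ε * (Fintype.card V * p ^ 2))
    (col : ∀ v v', v ≠ v' → |∑ u, ind (adj u v ∧ adj u v') - Fintype.card V * p ^ 2| ≤
      ε * (Fintype.card V * p ^ 2)) : QR adj p ε where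
  pos := pos
  le_one := le_one
  big := big
  deg v := by
    have := deg v
    rwa [sum_ind] at this
  row u u' h := by
    have := row u u' h
    rw [sum_ind] at this
    convert this
  col u u' h := by
    have := col u u' h
    rw [sum_ind] at this
    convert this

theorem card_c_le (ω : ∀ i : Ix J k N, Sx J k N i) (j : Fin J) (c : Fin (k (j + 1)) → Al N) :
    ((open Classical in (Rl ω j).filter fun t => t.2.1 = c).card : ℝ) ≤
      ∑ b : VV (k j) N × VV (k j) N, ind (Ac J k N (List.ofFn c) ⟨j, b⟩ (ω ⟨j, b⟩)) := by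
  classical
  rw [sum_ind]
  norm_cast
  refine le_trans (Finset.card_le_card (t := (Finset.univ.filter fun b : VV (k j) N × VV (k j) N =>
    Ac J k N (List.ofFn c) ⟨j, b⟩ (ω ⟨j, b⟩)).image fun b => (b.1.1, c, b.2.1)) ?_)
    (Finset.card_image_le.trans (le_of_eq ?_))
  · rintro ⟨u, c', v⟩ ht
    rw [Finset.mem_filter, mem_Rl] at ht
    obtain ⟨⟨h, hu, hv, h1, h2⟩, rfl⟩ := ht
    rw [Finset.mem_image]
    refine ⟨(⟨u, hu⟩, ⟨v, hv⟩), ?_, rfl⟩
    rw [Finset.mem_filter]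
    exact ⟨Finset.mem_univ _, c', h1, rfl, h2⟩
  · congr!

end Vale.Agent.P172.Rnd
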