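import Vale.Agent.P172.Rand.Count

/-!
# P172, block DIM-E: the random relators (helper723)
-/

namespace Vale.Agent.P172.Rnd

open Finset

open Classical in
/-- good words -/
abbrev VV (n N : ℕ) : Type := {w : Fin n → Al N // Good (List.ofFn w)}

/-- index set of the coordinates -/
abbrev Ix (J : ℕ) (k : ℕ → ℕ) (N : ℕ) : Type := Σ j : Fin J, VV (k j) N × VV (k j) N

/-- values of the coordinates -/
abbrev Sx (J : ℕ) (k : ℕ → ℕ) (N : ℕ) (i : Ix J k N) : Type := Option (Fin (k (i.1 + 1)) → Al N)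

noncomputable instance instFintypeVV (n N : ℕ) : Fintype (VV n N) :=
  open Classical in inferInstance

/-- edge density -/
noncomputable def pp (k : ℕ → ℕ) (N j : ℕ) : ℝ := 1 / (N : ℝ) ^ (k j - 1)

/-- probability of one relator -/
noncomputable def qq (k : ℕ → ℕ) (N j : ℕ) : ℝ :=
  pp k N j / (Fintype.card (Al N) : ℝ) ^ k (j + 1)

/-- weights -/
noncomputable def wt (J : ℕ) (k : ℕ → ℕ) (N : ℕ) (i : Ix J k N) (s : Sx J k N i) : ℝ :=
  s.elim (1 - pp k N i.1) fun _ => qq k N i.1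

variable {J : ℕ} {k : ℕ → ℕ} {N : ℕ}

theorem pp_pos (hN : 0 < N) (j : ℕ) : 0 < pp k N j := by
  unfold pp; positivity

theorem pp_le_one (hN : 0 < N) (j : ℕ) : pp k N j ≤ 1 := by
  unfold pp
  rw [div_le_one (by positivity)]
  exact one_le_pow₀ (by exact_mod_cast hN)

theorem cAl_pos (hN : 0 < N) : (0 : ℝ) < Fintype.card (Al N) := by
  rw [card_Al]; push_cast; positivity

theorem qq_pos (hN : 0 < N) (j : ℕ) : 0 < qq k N j :=
  div_pos (pp_pos hN j) (pow_pos (cAl_pos hN) _)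

theorem qq_mul (hN : 0 < N) (j : ℕ) :
    qq k N j * (Fintype.card (Al N) : ℝ) ^ k (j + 1) = pp k N j := by
  unfold qq
  exact div_mul_cancel₀ _ (pow_pos (cAl_pos hN) _).ne'

theorem wt_nonneg (hN : 0 < N) (i : Ix J k N) (s : Sx J k N i) : 0 ≤ wt J k N i s := by
  cases s with
  | none => exact sub_nonneg.2 (pp_le_one hN _)
  | some c => exact (qq_pos hN _).le

theorem wt_sum (hN : 0 < N) (i : Ix J k N) : ∑ s, wt J k N i s = 1 := by
  rw [Fintype.sum_option]
  simp only [wt, Option.elim]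
  rw [Finset.sum_const, nsmul_eq_mul, Finset.card_univ, Fintype.card_fun, Fintype.card_fin,
    Nat.cast_pow, mul_comm, qq_mul hN]
  ring

/-- the coordinate gives an edge -/
def Ad (J : ℕ) (k : ℕ → ℕ) (N : ℕ) (i : Ix J k N) (s : Sx J k N i) : Prop :=
  ∃ c, s = some c ∧ Good (relWord i.2.1.1 c i.2.2.1)

theorem mean_eq (i : Ix J k N) : ∑ s, wt J k N i s * ind (Ad J k N i s) =
    qq k N i.1 * ∑ c : Fin (k (i.1 + 1)) → Al N, ind (Good (relWord i.2.1.1 c i.2.2.1)) := by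
  rw [Fintype.sum_option]
  rw [ind_neg (p := Ad J k N i none) (by rintro ⟨c, h, -⟩; cases h), mul_zero, zero_add,
    Finset.mul_sum]
  refine Finset.sum_congr rfl fun c _ => ?_
  have : Ad J k N i (some c) ↔ Good (relWord i.2.1.1 c i.2.2.1) := by
    constructor
    · rintro ⟨c', h, hg⟩
      cases h
      exact hg
    · intro h
      exact ⟨c, rfl, h⟩
  rw [show ind (Ad J k N i (some c)) = ind (Good (relWord i.2.1.1 c i.2.2.1)) by
    rw [propext this]]
  rfl

theorem mean_nonneg (hN : 0 < N) (i : Ix J k N) :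
    0 ≤ ∑ s, wt J k N i s * ind (Ad J k N i s) :=
  Finset.sum_nonneg fun s _ => mul_nonneg (wt_nonneg hN i s) (ind_nonneg _)

theorem mean_le (hN : 0 < N) (i : Ix J k N) :
    ∑ s, wt J k N i s * ind (Ad J k N i s) ≤ pp k N i.1 := by
  rw [mean_eq, ← qq_mul hN]
  refine mul_le_mul_of_nonneg_left ?_ (qq_pos hN _).le
  refine (Finset.sum_le_sum fun c _ => ind_le_one _).trans (le_of_eq ?_)
  simp [Fintype.card_fun]

theorem sum_ind {ι : Type*} [Fintype ι] (p : ι → Prop) :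
    ∑ x, ind (p x) = ((open Classical in Finset.univ.filter p).card : ℝ) := by
  classical
  unfold ind
  rw [Finset.sum_boole]

/-- letters of `v` do not occur in `u` -/
def Dj {n : ℕ} (u v : Fin n → Al N) : Prop :=
  (∀ i, (v i).1.1 ∉ la u) ∧ ∀ i, (v i).1.2 ∉ lb u

theorem Dj.symm {n : ℕ} {u v : Fin n → Al N} (h : Dj u v) : Dj v u := by
  constructor
  · intro i hi
    simp only [la, Finset.mem_image, Finset.mem_univ, true_and] at hi
    obtain ⟨j, hj⟩ := hi
    exact h.1 j (by rw [hj]; exact Finset.mem_image_of_mem _ (Finset.mem_univ i))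
  · intro i hi
    simp only [lb, Finset.mem_image, Finset.mem_univ, true_and] at hi
    obtain ⟨j, hj⟩ := hi
    exact h.2 j (by rw [hj]; exact Finset.mem_image_of_mem _ (Finset.mem_univ i))

/-- most words of length `n` are good and avoid `2 m` letters -/
def LB (N n m : ℕ) (δ : ℝ) : Prop :=
  ∀ Ra Rb : Finset (Fin N), Ra.card ≤ 2 * m → Rb.card ≤ 2 * m →
    (1 - δ) * (Fintype.card (Al N) : ℝ) ^ n ≤
      ∑ w : Fin n → Al N, ind (Good (List.ofFn w) ∧ (∀ i, (w i).1.1 ∉ Ra) ∧ ∀ i, (w i).1.2 ∉ Rb)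

theorem eventually_LB (n m : ℕ) {δ : ℝ} (hδ : 0 < δ) : ∃ N₀ : ℕ, ∀ N ≥ N₀, LB N n m δ := by
  obtain ⟨N₀, h⟩ := eventually_card n (2 * m) hδ
  refine ⟨N₀, fun N hN Ra Rb ha hb => (h N hN Ra Rb ha hb).trans (le_of_eq ?_)⟩
  rw [sum_ind, ← card_avoid]
  congr!

theorem mean_ge (hN : 0 < N) {δ : ℝ} (i : Ix J k N) (hLB : LB N (k (i.1 + 1)) (k i.1) δ)
    (hd : Dj i.2.1.1 i.2.2.1) :
    (1 - δ) * pp k N i.1 ≤ ∑ s, wt J k N i s * ind (Ad J k N i s) := by
  rw [mean_eq, ← qq_mul hN]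
  have h := hLB (la i.2.1.1 ∪ la i.2.2.1) (lb i.2.1.1 ∪ lb i.2.2.1)
    ((Finset.card_union_le _ _).trans (by
      have := card_la i.2.1.1; have := card_la i.2.2.1; omega))
    ((Finset.card_union_le _ _).trans (by
      have := card_lb i.2.1.1; have := card_lb i.2.2.1; omega))
  have h2 : ∑ w : Fin (k (i.1 + 1)) → Al N, ind (Good (List.ofFn w) ∧
      (∀ i_1, (w i_1).1.1 ∉ la i.2.1.1 ∪ la i.2.2.1) ∧
        ∀ i_1, (w i_1).1.2 ∉ lb i.2.1.1 ∪ lb i.2.2.1) ≤
      ∑ c : Fin (k (i.1 + 1)) → Al N, ind (Good (relWord i.2.1.1 c i.2.2.1)) := by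
    refine Finset.sum_le_sum fun c _ => ind_mono ?_
    rintro ⟨hg, ha, hb⟩
    exact good_relWord i.2.1.2 i.2.2.2 hg hd.1 hd.2 ha hb
  have h3 := mul_le_mul_of_nonneg_left (h.trans h2) (qq_pos (k := k) hN i.1).le
  calc (1 - δ) * (qq k N i.1 * (Fintype.card (Al N) : ℝ) ^ k (i.1 + 1))
      = qq k N i.1 * ((1 - δ) * (Fintype.card (Al N) : ℝ) ^ k (i.1 + 1)) := by ring
    _ ≤ _ := h3

/-- sum over good words -/
theorem sum_VV {n : ℕ} (f : (Fin n → Al N) → ℝ) :
    ∑ v : VV n N, f v.1 = ∑ w : Fin n → Al N, ind (Good (List.ofFn w)) * f w := by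
  classical
  have h1 : ∑ w : Fin n → Al N, ind (Good (List.ofFn w)) * f w =
      ∑ w ∈ Finset.univ.filter (fun w : Fin n → Al N => Good (List.ofFn w)), f w := by
    rw [Finset.sum_filter]
    refine Finset.sum_congr rfl fun w _ => ?_
    by_cases h : Good (List.ofFn w)
    · rw [ind_pos h, one_mul, if_pos h]
    · rw [ind_neg h, zero_mul, if_neg h]
  rw [h1]
  symm
  apply Finset.sum_subtype
  simp

theorem cardV_le {n : ℕ} : (Fintype.card (VV n N) : ℝ) ≤ (Fintype.card (Al N) : ℝ) ^ n := by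
  have h := Fintype.card_subtype_le (fun w : Fin n → Al N => Good (List.ofFn w))
  have h2 : Fintype.card (VV n N) ≤ Fintype.card (Fin n → Al N) := by
    convert h
  rw [Fintype.card_fun, Fintype.card_fin] at h2
  exact_mod_cast h2

/-- many good words avoid two given words -/
theorem sum_Dj {n : ℕ} {δ : ℝ} (hLB : LB N n n δ) (u u' : Fin n → Al N) :
    (1 - δ) * (Fintype.card (Al N) : ℝ) ^ n ≤ ∑ v : VV n N, ind (Dj u v.1 ∧ Dj u' v.1) := by
  rw [sum_VV (fun v => ind (Dj u v ∧ Dj u' v))]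
  refine (hLB (la u ∪ la u') (lb u ∪ lb u')
    ((Finset.card_union_le _ _).trans (by have := card_la u; have := card_la u'; omega))
    ((Finset.card_union_le _ _).trans (by have := card_lb u; have := card_lb u'; omega))).trans ?_
  refine Finset.sum_le_sum fun v _ => ?_
  rw [← ind_and]
  refine ind_mono ?_
  rintro ⟨hg, ha, hb⟩
  refine ⟨hg, ⟨fun i h => ha i (Finset.mem_union_left _ h), fun i h =>
    hb i (Finset.mem_union_left _ h)⟩, ⟨fun i h => ha i (Finset.mem_union_right _ h), fun i h =>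
    hb i (Finset.mem_union_right _ h)⟩⟩

end Vale.Agent.P172.Rnd
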