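import Vale.Agent.P172.Rand.Setup

/-!
# P172, block DIM-E: tail bounds for the random relators (helper723)
-/

namespace Vale.Agent.P172.Rnd

open Finset

variable {J : ℕ} {k : ℕ → ℕ} {N : ℕ}

/-- mean of the edge indicator -/
noncomputable def mn (J : ℕ) (k : ℕ → ℕ) (N : ℕ) (i : Ix J k N) : ℝ :=
  ∑ s, wt J k N i s * ind (Ad J k N i s)

/-- number of good words -/
noncomputable def cV (k : ℕ → ℕ) (N j : ℕ) : ℝ := Fintype.card (VV (k j) N)

theorem cV_nonneg (j : ℕ) : 0 ≤ cV k N j := Nat.cast_nonneg _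

/-- two-sided tail bound for codegrees -/
theorem tail_pair (hN : 0 < N) {ε δ : ℝ} (hε : 0 < ε) (hε1 : ε ≤ 1) (hδ : δ = ε / 12) (j : Fin J)
    (f g : VV (k j) N → Ix J k N) (hne : ∀ b, f b ≠ g b)
    (hd : ∀ b b', b ≠ b' → f b ≠ f b' ∧ f b ≠ g b' ∧ g b ≠ f b' ∧ g b ≠ g b')
    (hf : ∀ b, mn J k N (f b) ≤ pp k N j) (hg : ∀ b, mn J k N (g b) ≤ pp k N j)
    (D : VV (k j) N → Prop) (hD : (1 - δ) * (Fintype.card (Al N) : ℝ) ^ k j ≤ ∑ b, ind (D b))
    (hDf : ∀ b, D b → (1 - δ) * pp k N j ≤ mn J k N (f b))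
    (hDg : ∀ b, D b → (1 - δ) * pp k N j ≤ mn J k N (g b)) :
    Pr (wt J k N) (fun ω => ¬ |(∑ b, ind (Ad J k N (f b) (ω (f b)) ∧ Ad J k N (g b) (ω (g b)))) -
      cV k N j * pp k N j ^ 2| ≤ ε * (cV k N j * pp k N j ^ 2)) ≤
      2 * Real.exp (-(ε ^ 2 / 8) * (cV k N j * pp k N j ^ 2)) := by
  classical
  set μ := cV k N j * pp k N j ^ 2 with hμ
  have hpp := pp_pos (k := k) hN j
  have hμ0 : 0 ≤ μ := mul_nonneg (cV_nonneg _) (by positivity)
  set blk : VV (k j) N → Finset (Ix J k N) := fun b => {f b, g b} with hblk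
  have hdis : ∀ b b', b ≠ b' → Disjoint (blk b) (blk b') := by
    intro b b' h
    obtain ⟨h1, h2, h3, h4⟩ := hd b b' h
    rw [Finset.disjoint_left]
    intro i hi hi'
    simp only [hblk, Finset.mem_insert, Finset.mem_singleton] at hi hi'
    rcases hi with rfl | rfl <;> rcases hi' with h | h
    · exact h1 h
    · exact h2 h
    · exact h3 h
    · exact h4 h
  have hcnt : ∀ ω, cnt blk (Ad J k N) ω =
      ∑ b, ind (Ad J k N (f b) (ω (f b)) ∧ Ad J k N (g b) (ω (g b))) := by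
    intro ω
    unfold cnt
    refine Finset.sum_congr rfl fun b _ => ?_
    congr 1
    simp [hblk]
  have hprod : ∀ b, ∏ i ∈ blk b, ∑ s, wt J k N i s * ind (Ad J k N i s) =
      mn J k N (f b) * mn J k N (g b) := by
    intro b
    rw [hblk, Finset.prod_pair (hne b)]
    rfl
  have hmn : ∀ i, 0 ≤ mn J k N i := mean_nonneg hN
  have hup : ∑ b, ∏ i ∈ blk b, ∑ s, wt J k N i s * ind (Ad J k N i s) ≤ μ := by
    simp only [hprod]
    calc ∑ b, mn J k N (f b) * mn J k N (g b) ≤ ∑ _b : VV (k j) N, pp k N j ^ 2 := by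
          refine Finset.sum_le_sum fun b _ => ?_
          rw [sq]
          exact mul_le_mul (hf b) (hg b) (hmn _) hpp.le
      _ = μ := by simp [hμ, cV]
  have hδ0 : 0 < δ := by rw [hδ]; linarith
  have hδ1 : δ ≤ 1 / 12 := by rw [hδ]; linarith
  have hlo : (1 - ε / 4) * μ ≤ ∑ b, ∏ i ∈ blk b, ∑ s, wt J k N i s * ind (Ad J k N i s) := by
    simp only [hprod]
    calc (1 - ε / 4) * μ = (1 - 3 * δ) * pp k N j ^ 2 * cV k N j := by rw [hδ, hμ]; ring
      _ ≤ ((1 - δ) ^ 3 * pp k N j ^ 2) * cV k N j := by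
          refine mul_le_mul_of_nonneg_right ?_ (cV_nonneg _)
          refine mul_le_mul_of_nonneg_right ?_ (by positivity)
          nlinarith [sq_nonneg δ]
      _ ≤ ((1 - δ) ^ 3 * pp k N j ^ 2) * (Fintype.card (Al N) : ℝ) ^ k j := by
          refine mul_le_mul_of_nonneg_left cardV_le ?_
          have : 0 ≤ 1 - δ := by linarith
          positivity
      _ = ((1 - δ) ^ 2 * pp k N j ^ 2) * ((1 - δ) * (Fintype.card (Al N) : ℝ) ^ k j) := by ring
      _ ≤ ((1 - δ) ^ 2 * pp k N j ^ 2) * ∑ b, ind (D b) :=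
          mul_le_mul_of_nonneg_left hD (by positivity)
      _ = ∑ b, ((1 - δ) * pp k N j) * ((1 - δ) * pp k N j) * ind (D b) := by
          rw [Finset.mul_sum]
          exact Finset.sum_congr rfl fun b _ => by ring
      _ ≤ _ := by
          refine Finset.sum_le_sum fun b _ => ?_
          by_cases h : D b
          · rw [ind_pos h, mul_one]
            have h0 : 0 ≤ (1 - δ) * pp k N j := mul_nonneg (by linarith) hpp.le
            exact mul_le_mul (hDf b h) (hDg b h) h0 (hmn _)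
          · rw [ind_neg h, mul_zero]
            exact mul_nonneg (hmn _) (hmn _)
  have h1 := Pr_ge (wt_sum hN) (wt_nonneg hN) blk hdis (Ad J k N) hε hε1 hup
  have h2 := Pr_le (wt_sum hN) (wt_nonneg hN) blk hdis (Ad J k N) hμ0 hε hε1 hlo hup
  refine (Pr_mono (wt_nonneg hN) (B := fun ω => (1 + ε) * μ < cnt blk (Ad J k N) ω ∨
    cnt blk (Ad J k N) ω < (1 - ε) * μ) ?_).trans ((Pr_or (wt_nonneg hN) _ _).trans ?_)
  · intro ω h
    rw [← hcnt, abs_le] at h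
    by_contra hc
    push Not at hc
    apply h
    constructor <;> linarith [hc.1, hc.2]
  · have h3 : Real.exp (-(ε ^ 2 / 4) * μ) ≤ Real.exp (-(ε ^ 2 / 8) * μ) := by
      apply Real.exp_le_exp.2
      nlinarith [mul_nonneg (sq_nonneg ε) hμ0]
    linarith

theorem pair_ne {j : Fin J} {u u' v v' : VV (k j) N} (h : u ≠ u' ∨ v ≠ v') :
    (⟨j, (u, v)⟩ : Ix J k N) ≠ ⟨j, (u', v')⟩ := by
  intro h2
  have h3 := eq_of_heq (Sigma.mk.inj h2).2
  rw [Prod.mk.injEq] at h3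
  rcases h with h | h
  · exact h h3.1
  · exact h h3.2

theorem tail_row (hN : 0 < N) {ε δ : ℝ} (hε : 0 < ε) (hε1 : ε ≤ 1) (hδ : δ = ε / 12) (j : Fin J)
    (hLB : LB N (k j) (k j) δ) (hLB' : LB N (k (j + 1)) (k j) δ) (u u' : VV (k j) N)
    (huu' : u ≠ u') :
    Pr (wt J k N) (fun ω => ¬ |(∑ v : VV (k j) N, ind (Ad J k N ⟨j, (u, v)⟩ (ω ⟨j, (u, v)⟩) ∧
      Ad J k N ⟨j, (u', v)⟩ (ω ⟨j, (u', v)⟩))) -
      cV k N j * pp k N j ^ 2| ≤ ε * (cV k N j * pp k N j ^ 2)) ≤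
      2 * Real.exp (-(ε ^ 2 / 8) * (cV k N j * pp k N j ^ 2)) := by
  refine tail_pair hN hε hε1 hδ j (fun v => ⟨j, (u, v)⟩) (fun v => ⟨j, (u', v)⟩)
    (fun b => pair_ne (Or.inl huu')) (fun b b' h => ⟨pair_ne (Or.inr h), pair_ne (Or.inr h),
      pair_ne (Or.inr h), pair_ne (Or.inr h)⟩) (fun b => mean_le hN _) (fun b => mean_le hN _)
    (fun v => Dj u.1 v.1 ∧ Dj u'.1 v.1) (sum_Dj hLB u.1 u'.1)
    (fun v hv => mean_ge hN ⟨j, (u, v)⟩ hLB' hv.1)
    (fun v hv => mean_ge hN ⟨j, (u', v)⟩ hLB' hv.2)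

theorem tail_col (hN : 0 < N) {ε δ : ℝ} (hε : 0 < ε) (hε1 : ε ≤ 1) (hδ : δ = ε / 12) (j : Fin J)
    (hLB : LB N (k j) (k j) δ) (hLB' : LB N (k (j + 1)) (k j) δ) (v v' : VV (k j) N)
    (hvv' : v ≠ v') :
    Pr (wt J k N) (fun ω => ¬ |(∑ u : VV (k j) N, ind (Ad J k N ⟨j, (u, v)⟩ (ω ⟨j, (u, v)⟩) ∧
      Ad J k N ⟨j, (u, v')⟩ (ω ⟨j, (u, v')⟩))) -
      cV k N j * pp k N j ^ 2| ≤ ε * (cV k N j * pp k N j ^ 2)) ≤
      2 * Real.exp (-(ε ^ 2 / 8) * (cV k N j * pp k N j ^ 2)) := by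
  refine tail_pair hN hε hε1 hδ j (fun u => ⟨j, (u, v)⟩) (fun u => ⟨j, (u, v')⟩)
    (fun b => pair_ne (Or.inr hvv')) (fun b b' h => ⟨pair_ne (Or.inl h), pair_ne (Or.inl h),
      pair_ne (Or.inl h), pair_ne (Or.inl h)⟩) (fun b => mean_le hN _) (fun b => mean_le hN _)
    (fun u => Dj v.1 u.1 ∧ Dj v'.1 u.1) (sum_Dj hLB v.1 v'.1)
    (fun u hu => mean_ge hN ⟨j, (u, v)⟩ hLB' hu.1.symm)
    (fun u hu => mean_ge hN ⟨j, (u, v')⟩ hLB' hu.2.symm)

theorem tail_deg (hN : 0 < N) {ε : ℝ} (hε : 0 < ε) (hε1 : ε ≤ 1) (j : Fin J) (v : VV (k j) N) :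
    Pr (wt J k N) (fun ω => ¬ (∑ u : VV (k j) N, ind (Ad J k N ⟨j, (u, v)⟩ (ω ⟨j, (u, v)⟩))) ≤
      (1 + ε) * (cV k N j * pp k N j)) ≤ Real.exp (-(ε ^ 2 / 4) * (cV k N j * pp k N j)) := by
  classical
  set blk : VV (k j) N → Finset (Ix J k N) := fun u => {⟨j, (u, v)⟩} with hblk
  have hdis : ∀ b b', b ≠ b' → Disjoint (blk b) (blk b') := by
    intro b b' h
    simp only [hblk, Finset.disjoint_singleton]
    exact pair_ne (Or.inl h)
  have hup : ∑ b, ∏ i ∈ blk b, ∑ s, wt J k N i s * ind (Ad J k N i s) ≤ cV k N j * pp k N j := by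
    simp only [hblk, Finset.prod_singleton]
    calc _ ≤ ∑ _b : VV (k j) N, pp k N j := Finset.sum_le_sum fun b _ => mean_le hN _
      _ = _ := by simp [cV]
  have h1 := Pr_ge (wt_sum hN) (wt_nonneg hN) blk hdis (Ad J k N) hε hε1 hup
  refine (Pr_mono (wt_nonneg hN) ?_).trans h1
  intro ω h
  push Not at h
  refine h.trans_le (le_of_eq ?_)
  unfold cnt
  refine Finset.sum_congr rfl fun b _ => ?_
  congr 1
  simp [hblk]

/-- the coordinate gives the relator with middle part `l` -/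
def Ac (J : ℕ) (k : ℕ → ℕ) (N : ℕ) (l : List (Al N)) (i : Ix J k N) (s : Sx J k N i) : Prop :=
  ∃ c, s = some c ∧ List.ofFn c = l ∧ Good (relWord i.2.1.1 c i.2.2.1)

theorem mean_Ac (hN : 0 < N) (j : Fin J) (c : Fin (k (j + 1)) → Al N) (u v : VV (k j) N) :
    ∑ s, wt J k N ⟨j, (u, v)⟩ s * ind (Ac J k N (List.ofFn c) ⟨j, (u, v)⟩ s) ≤ qq k N j := by
  classical
  rw [Fintype.sum_option]
  rw [ind_neg (p := Ac J k N (List.ofFn c) ⟨j, (u, v)⟩ none) (by rintro ⟨c, h, -⟩; cases h),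
    mul_zero, zero_add]
  rw [Finset.sum_eq_single c]
  · exact mul_le_of_le_one_right (qq_pos hN _).le (ind_le_one _)
  · intro c' _ hc'
    rw [ind_neg, mul_zero]
    rintro ⟨c'', h, h2, -⟩
    cases h
    exact hc' (List.ofFn_injective h2)
  · intro h
    exact absurd (Finset.mem_univ _) h

theorem tail_c (hN : 0 < N) {ε : ℝ} (hε : 0 < ε) (hε1 : ε ≤ 1) (j : Fin J)
    (c : Fin (k (j + 1)) → Al N) :
    Pr (wt J k N) (fun ω => ¬ (∑ b : VV (k j) N × VV (k j) N,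
      ind (Ac J k N (List.ofFn c) ⟨j, b⟩ (ω ⟨j, b⟩))) ≤
      (1 + ε) * (cV k N j ^ 2 * qq k N j)) ≤ Real.exp (-(ε ^ 2 / 4) * (cV k N j ^ 2 * qq k N j)) := by
  classical
  set blk : VV (k j) N × VV (k j) N → Finset (Ix J k N) := fun b => {⟨j, b⟩} with hblk
  have hdis : ∀ b b', b ≠ b' → Disjoint (blk b) (blk b') := by
    intro b b' h
    simp only [hblk, Finset.disjoint_singleton]
    intro h2
    exact h (eq_of_heq (Sigma.mk.inj h2).2)
  have hup : ∑ b, ∏ i ∈ blk b, ∑ s, wt J k N i s * ind (Ac J k N (List.ofFn c) i s) ≤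
      cV k N j ^ 2 * qq k N j := by
    simp only [hblk, Finset.prod_singleton]
    calc _ ≤ ∑ _b : VV (k j) N × VV (k j) N, qq k N j :=
          Finset.sum_le_sum fun b _ => mean_Ac hN j c b.1 b.2
      _ = _ := by
          rw [Finset.sum_const, nsmul_eq_mul, Finset.card_univ, Fintype.card_prod, Nat.cast_mul,
            cV, sq]
  have h1 := Pr_ge (wt_sum hN) (wt_nonneg hN) blk hdis (Ac J k N (List.ofFn c)) hε hε1 hup
  refine (Pr_mono (wt_nonneg hN) ?_).trans h1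
  intro ω h
  push Not at h
  refine h.trans_le (le_of_eq ?_)
  unfold cnt
  refine Finset.sum_congr rfl fun b _ => ?_
  congr 1
  simp [hblk]

end Vale.Agent.P172.Rnd
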